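import Vale.Agent.P242W70.HL
import Vale.Agent.P233.H886.KantMain

/-!
# P242W: the transport cost along a linear interpolation of densities
-/

open MeasureTheory Filter Topology Set
open scoped ENNReal NNReal

set_option linter.unusedSectionVars false

universe u

noncomputable section

namespace Vale.Agent.P242W70

open Vale.Agent.P233.H886

variable {X : Type u} [MetricSpace X] [MeasurableSpace X] [BorelSpace X]

/-- `∫ u h ≤ N ‖g‖₂` for bounded Lipschitz `u` and bounded continuous `g` above the slope of `u` -/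
def Dual (m : Measure X) (h : X → ℝ) (N : ℝ) : Prop :=
  ∀ u g : X → ℝ, (∃ K, LipschitzWith K u) → (∃ B, ∀ x, |u x| ≤ B) → Continuous g →
    (∀ x, 0 ≤ g x) → (∃ B, ∀ x, g x ≤ B) →
    (∀ x, limsup (fun y => ENNReal.ofReal (|u y - u x| / dist y x)) (𝓝[≠] x) ≤
      ENNReal.ofReal (g x)) → ∫ x, u x * h x ∂m ≤ N * √(∫ x, g x ^ 2 ∂m)

variable {m : Measure X} [IsFiniteMeasure m] {ρ h : X → ℝ} {c N : ℝ}

omit [IsFiniteMeasure m] in
theorem int_mul {φ w : X → ℝ} {B : ℝ} (hφ : AEStronglyMeasurable φ m) (hB : ∀ x, |φ x| ≤ B)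
    (hw : Integrable w m) : Integrable (fun x => φ x * w x) m :=
  hw.bdd_mul (c := B) hφ (Eventually.of_forall fun x => by rw [Real.norm_eq_abs]; exact hB x)

section

variable (hc : 0 < c) (hρ : Integrable ρ m) (hh : Integrable h m) (h0 : ∀ᵐ x ∂m, c ≤ ρ x)
  (h1 : ∀ᵐ x ∂m, c ≤ ρ x + h x) (hN : Dual m h N) {u : X → ℝ} {B : ℝ} (hu : ∀ x, |u x| ≤ B)
include hc hρ hh h0 h1 hN hu

theorem step {s r : ℝ} (hs : 0 < s) (hr : 0 < r) (hsr : s + r ≤ 1) :
    ∫ x, Q u (s + r) x * (ρ x + (s + r) * h x) ∂m ≤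
      ∫ x, Q u s x * (ρ x + s * h x) ∂m + r * (1 + r / s) * (N ^ 2 / (2 * c)) := by
  have hs' := add_pos hs hr
  have m1 := (cont_Q hu hs).aestronglyMeasurable (μ := m)
  have m2 := (cont_Q hu hs').aestronglyMeasurable (μ := m)
  have b1 := abs_Q_le hu hs
  have b2 := abs_Q_le hu hs'
  have hG0 : ∀ x, 0 ≤ G u s r x := fun x => Real.sqrt_nonneg _
  have iG : Integrable (fun x => G u s r x ^ 2) m := by
    refine (integrable_const (√(2 * (s + r) / (r * s) * (2 * B)) ^ 2)).mono'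
      ((cont_G hu hs hr).pow 2).aestronglyMeasurable (Eventually.of_forall fun x => ?_)
    rw [Real.norm_eq_abs, abs_of_nonneg (sq_nonneg _)]
    exact pow_le_pow_left₀ (hG0 x) (G_le hu hs hr x) 2
  have h2 := hN (Q u s) (G u s r) (lip_Q hu hs) ⟨B, b1⟩ (cont_G hu hs hr) hG0 ⟨_, G_le hu hs hr⟩
    (slope_Q hu hs hr)
  have i1 : Integrable (fun x => Q u s x * (ρ x + s * h x)) m :=
    int_mul m1 b1 (hρ.add (hh.const_mul s))
  have i2 := int_mul m2 b2 (hρ.add (hh.const_mul (s + r)))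
  have i3 := int_mul m1 b1 hh
  have i4 : Integrable (fun x => Q u s x * (ρ x + s * h x) + r * (Q u s x * h x)) m :=
    i1.add (i3.const_mul r)
  have h3 : ∫ x, Q u (s + r) x * (ρ x + (s + r) * h x) ∂m ≤
      ∫ x, (Q u s x * (ρ x + s * h x) + r * (Q u s x * h x) -
        c * (r * s / (2 * (s + r))) * G u s r x ^ 2) ∂m := by
    refine integral_mono_ae i2 ((i1.add (i3.const_mul r)).sub (iG.const_mul _)) ?_
    filter_upwards [h0, h1] with x a0 a1
    have e1 : r * s / (2 * (s + r)) * G u s r x ^ 2 = Q u s x - Q u (s + r) x := by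
      rw [G_sq hu hs hr]
      field_simp
    have a2 : c ≤ ρ x + (s + r) * h x := by nlinarith
    have a3 := mul_le_mul_of_nonneg_left a2 (sub_nonneg.2 (Q_anti hu hs hr x))
    rw [mul_assoc c, e1]
    nlinarith
  rw [integral_sub i4 (iG.const_mul _), integral_add i1 (i3.const_mul r),
    integral_const_mul, integral_const_mul] at h3
  set a := √(∫ x, G u s r x ^ 2 ∂m) with ha
  have h4 : ∫ x, G u s r x ^ 2 ∂m = a ^ 2 :=
    (Real.sq_sqrt (integral_nonneg fun x => sq_nonneg _)).symm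
  rw [h4] at h3
  have h5 : r * (N * a) - c * (r * s / (2 * (s + r))) * a ^ 2 ≤
      r * (1 + r / s) * (N ^ 2 / (2 * c)) := by
    have e2 : r * (1 + r / s) * (N ^ 2 / (2 * c)) - (r * (N * a) -
        c * (r * s / (2 * (s + r))) * a ^ 2) =
        r / (2 * c * s * (s + r)) * (N * (s + r) - c * s * a) ^ 2 := by
      field_simp
      ring
    have : 0 ≤ r / (2 * c * s * (s + r)) * (N * (s + r) - c * s * a) ^ 2 := by positivity
    linarith
  have h6 := mul_le_mul_of_nonneg_left h2 hr.le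
  linarith

theorem steps {ε r : ℝ} (hε : 0 < ε) (hr : 0 < r) (n : ℕ) (hn : ε + n * r ≤ 1) :
    ∫ x, Q u (ε + n * r) x * (ρ x + (ε + n * r) * h x) ∂m ≤
      ∫ x, Q u ε x * (ρ x + ε * h x) ∂m + n * r * (1 + r / ε) * (N ^ 2 / (2 * c)) := by
  induction n with
  | zero => simp
  | succ n ih =>
    have e : ε + ((n + 1 : ℕ) : ℝ) * r = ε + n * r + r := by push_cast; ring
    rw [e] at hn ⊢
    have hs : 0 < ε + n * r := by positivity
    have h2 := step hc hρ hh h0 h1 hN hu hs hr hn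
    have h3 := ih (by linarith)
    have h4 : r / (ε + n * r) ≤ r / ε := by
      gcongr
      exact le_add_of_nonneg_right (by positivity)
    have h5 : r * (1 + r / (ε + n * r)) * (N ^ 2 / (2 * c)) ≤
        r * (1 + r / ε) * (N ^ 2 / (2 * c)) := by gcongr
    push_cast
    linarith

theorem from_eps {ε : ℝ} (hε : 0 < ε) (hε1 : ε < 1) :
    ∫ x, Q u 1 x * (ρ x + h x) ∂m ≤ ∫ x, Q u ε x * (ρ x + ε * h x) ∂m + N ^ 2 / (2 * c) := by
  have hK : 0 ≤ N ^ 2 / (2 * c) := by positivity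
  have key : ∀ n : ℕ, ∫ x, Q u 1 x * (ρ x + h x) ∂m ≤ ∫ x, Q u ε x * (ρ x + ε * h x) ∂m +
      (1 + 1 / ((n : ℝ) + 1) / ε) * (N ^ 2 / (2 * c)) := by
    intro n
    have hr : 0 < (1 - ε) / ((n : ℝ) + 1) := div_pos (by linarith) (by positivity)
    have e : ((n + 1 : ℕ) : ℝ) * ((1 - ε) / ((n : ℝ) + 1)) = 1 - ε := by
      push_cast
      field_simp
    have h2 := steps hc hρ hh h0 h1 hN hu hε hr (n + 1) (by rw [e]; linarith)
    rw [e, add_sub_cancel] at h2
    simp only [one_mul] at h2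
    refine h2.trans (add_le_add le_rfl (mul_le_mul_of_nonneg_right ?_ hK))
    have h3 : (1 - ε) / ((n : ℝ) + 1) / ε ≤ 1 / ((n : ℝ) + 1) / ε := by
      gcongr
      linarith
    have h4 : 0 ≤ (1 - ε) / ((n : ℝ) + 1) / ε := by positivity
    nlinarith
  have hl : Tendsto (fun n : ℕ => ∫ x, Q u ε x * (ρ x + ε * h x) ∂m +
      (1 + 1 / ((n : ℝ) + 1) / ε) * (N ^ 2 / (2 * c))) atTop
      (𝓝 (∫ x, Q u ε x * (ρ x + ε * h x) ∂m + (1 + 0 / ε) * (N ^ 2 / (2 * c)))) :=
    tendsto_const_nhds.add ((tendsto_const_nhds.add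
      (tendsto_one_div_add_atTop_nhds_zero_nat.div_const ε)).mul_const _)
  simpa using ge_of_tendsto' hl key

/-- **the dual estimate** -/
theorem kuw (hm : AEStronglyMeasurable u m) {ψ : X → ℝ} {B' : ℝ} (hψ : AEStronglyMeasurable ψ m)
    (hB : ∀ x, |ψ x| ≤ B') (hle : ∀ x y, ψ x ≤ u y + dist x y ^ 2 / 2) :
    ∫ x, ψ x * (ρ x + h x) ∂m ≤ ∫ x, u x * ρ x ∂m + N ^ 2 / (2 * c) := by
  have h2 : ∫ x, ψ x * (ρ x + h x) ∂m ≤ ∫ x, Q u 1 x * (ρ x + h x) ∂m := by
    refine integral_mono_ae (int_mul hψ hB (hρ.add hh))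
      (int_mul (cont_Q hu one_pos).aestronglyMeasurable (abs_Q_le hu one_pos) (hρ.add hh)) ?_
    filter_upwards [h1] with x hx
    exact mul_le_mul_of_nonneg_right (le_Q fun y => by simpa using hle x y) (hc.le.trans hx)
  have key : ∀ ε : ℝ, 0 < ε → ε < 1 → ∫ x, ψ x * (ρ x + h x) ∂m ≤
      ∫ x, u x * ρ x ∂m + N ^ 2 / (2 * c) + ε * (|B| * ∫ x, |h x| ∂m) := by
    intro ε hε hε1
    have h3 := from_eps hc hρ hh h0 h1 hN hu hε hε1
    have i1 := int_mul hm hu hρ
    have i2 := (hh.abs.const_mul |B|).const_mul ε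
    have h4 : ∫ x, Q u ε x * (ρ x + ε * h x) ∂m ≤ ∫ x, (u x * ρ x + ε * (|B| * |h x|)) ∂m := by
      refine integral_mono_ae (int_mul (cont_Q hu hε).aestronglyMeasurable (abs_Q_le hu hε)
        (hρ.add (hh.const_mul ε))) (i1.add i2) ?_
      filter_upwards [h0] with x hx
      have a1 := mul_le_mul_of_nonneg_right (Q_le_self hu hε x) (hc.le.trans hx)
      have a2 : Q u ε x * h x ≤ |B| * |h x| := by
        refine (le_abs_self _).trans ?_
        rw [abs_mul]
        exact mul_le_mul_of_nonneg_right ((abs_Q_le hu hε x).trans (le_abs_self B)) (abs_nonneg _)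
      nlinarith [mul_le_mul_of_nonneg_left a2 hε.le]
    rw [integral_add i1 i2, integral_const_mul, integral_const_mul] at h4
    linarith
  have hA : 0 ≤ |B| * ∫ x, |h x| ∂m :=
    mul_nonneg (abs_nonneg _) (integral_nonneg fun x => abs_nonneg _)
  refine le_of_forall_pos_le_add fun η hη => ?_
  set A := |B| * ∫ x, |h x| ∂m
  have h5 := key (min (1 / 2) (η / (A + 1))) (lt_min (by norm_num) (by positivity))
    ((min_le_left _ _).trans_lt (by norm_num))
  have h6 : min (1 / 2) (η / (A + 1)) * A ≤ η / (A + 1) * (A + 1) :=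
    mul_le_mul (min_le_right _ _) (by linarith) hA (by positivity)
  rw [div_mul_cancel₀ _ (by positivity)] at h6
  linarith

end

omit [MeasurableSpace X] [BorelSpace X] in
theorem cost_min {D : ℝ} (hD : 0 ≤ D) :
    Cost (fun x y : X => min (dist x y) D ^ 2 / 2) (D ^ 2 / 2) D := by
  have key : ∀ a b e : ℝ, 0 ≤ a → 0 ≤ b → |a - b| ≤ e →
      |min a D ^ 2 / 2 - min b D ^ 2 / 2| ≤ D * e := by
    intro a b e ha hb h
    have h1 : |min a D - min b D| ≤ e := (abs_min_sub_min_le_max a D b D).trans (by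
      rw [sub_self, abs_zero]
      exact max_le h ((abs_nonneg _).trans h))
    have h2 : min a D ^ 2 / 2 - min b D ^ 2 / 2 =
        (min a D + min b D) / 2 * (min a D - min b D) := by ring
    have h3 : 0 ≤ min a D := le_min ha hD
    have h4 : 0 ≤ min b D := le_min hb hD
    rw [h2, abs_mul, abs_of_nonneg (by positivity)]
    exact mul_le_mul (by linarith [min_le_right a D, min_le_right b D]) h1 (abs_nonneg _) hD
  refine ⟨fun x y => by positivity, fun x y => ?_, fun x x' y => ?_, fun x y y' => ?_⟩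
  · have h3 : 0 ≤ min (dist x y) D := le_min dist_nonneg hD
    gcongr
    exact min_le_right _ _
  · exact key _ _ _ dist_nonneg dist_nonneg (abs_dist_sub_le x x' y)
  · rw [dist_comm x y, dist_comm x y']
    exact key _ _ _ dist_nonneg dist_nonneg (abs_dist_sub_le y y' x)

variable [SecondCountableTopology X] [CompleteSpace X]

/-- **the coupling**, truncated cost -/
theorem coupling_min {σ : X → ℝ} (hc : 0 < c) (hρ : Integrable ρ m) (hσ : Integrable σ m)
    (h0 : ∀ᵐ x ∂m, c ≤ ρ x) (h1 : ∀ᵐ x ∂m, c ≤ σ x) (hN : Dual m (fun x => σ x - ρ x) N)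
    [IsProbabilityMeasure (m.withDensity fun x => ENNReal.ofReal (ρ x))]
    [IsProbabilityMeasure (m.withDensity fun x => ENNReal.ofReal (σ x))] {D : ℝ} (hD : 0 ≤ D) :
    ∃ γ : Measure (X × X), γ.map Prod.fst = (m.withDensity fun x => ENNReal.ofReal (ρ x)) ∧
      γ.map Prod.snd = (m.withDensity fun x => ENNReal.ofReal (σ x)) ∧
      ∫ z, min (dist z.1 z.2) D ^ 2 ∂γ ≤ N ^ 2 / c := by
  obtain ⟨γ, φ, ψ, hγ, e1, -, hle, -, bφ, bψ, lφ, lψ, e2⟩ := kant (cost_min (X := X) hD)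
    (m.withDensity fun x => ENNReal.ofReal (ρ x)) (m.withDensity fun x => ENNReal.ofReal (σ x))
  refine ⟨γ, hγ.fst, hγ.snd, ?_⟩
  rw [integral_withDens hρ.1.aemeasurable (h0.mono fun x hx => hc.le.trans hx),
    integral_withDens hσ.1.aemeasurable (h1.mono fun x hx => hc.le.trans hx), ← e1,
    integral_div] at e2
  have h2 := kuw hc hρ (hσ.sub hρ) h0 (h1.mono fun x hx => by simpa using hx) hN
    (u := fun x => -φ x) (B := D ^ 2 / 2)
    (fun x => by rw [abs_neg, abs_of_nonneg (bφ x).1]; exact (bφ x).2)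
    (continuous_of_lip lφ).neg.aestronglyMeasurable (ψ := ψ) (B' := D ^ 2 / 2)
    (continuous_of_lip lψ).aestronglyMeasurable
    (fun x => abs_le.2 ⟨(bψ x).1, (bψ x).2.trans (by positivity)⟩) (fun x y => by
      have h3 := hle y x
      have h4 : min (dist y x) D ^ 2 ≤ dist x y ^ 2 := by
        rw [dist_comm x y]
        exact pow_le_pow_left₀ (le_min dist_nonneg hD) (min_le_left _ _) 2
      change φ y + ψ x ≤ min (dist y x) D ^ 2 / 2 at h3
      change ψ x ≤ -φ y + dist x y ^ 2 / 2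
      linarith)
  simp only [Pi.sub_apply, add_sub_cancel, neg_mul, integral_neg] at h2
  simp only [mul_comm (ρ _), mul_comm (σ _)] at e2
  have e3 : N ^ 2 / c = 2 * (N ^ 2 / (2 * c)) := by field_simp
  linarith

/-- **the coupling** for a measure which is carried by a ball -/
theorem coupling {σ : X → ℝ} (hc : 0 < c) (hρ : Integrable ρ m) (hσ : Integrable σ m)
    (h0 : ∀ᵐ x ∂m, c ≤ ρ x) (h1 : ∀ᵐ x ∂m, c ≤ σ x) (hN : Dual m (fun x => σ x - ρ x) N)
    [IsProbabilityMeasure (m.withDensity fun x => ENNReal.ofReal (ρ x))]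
    [IsProbabilityMeasure (m.withDensity fun x => ENNReal.ofReal (σ x))] {x0 : X} {R : ℝ}
    (hR : ∀ᵐ x ∂m, dist x x0 ≤ R) :
    ∃ γ : Measure (X × X), IsProbabilityMeasure γ ∧
      γ.map Prod.fst = (m.withDensity fun x => ENNReal.ofReal (ρ x)) ∧
      γ.map Prod.snd = (m.withDensity fun x => ENNReal.ofReal (σ x)) ∧
      (∀ᵐ z ∂γ, dist z.1 z.2 ≤ 2 * R) ∧ ∫ z, dist z.1 z.2 ^ 2 ∂γ ≤ N ^ 2 / c ∧
      ∫⁻ z, edist z.1 z.2 ^ 2 ∂γ ≤ ENNReal.ofReal (N ^ 2 / c) := by
  obtain ⟨γ, e1, e2, h⟩ := coupling_min hc hρ hσ h0 h1 hN (D := |2 * R|) (abs_nonneg _)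
  have : IsProbabilityMeasure γ := IsPlan.isProb ⟨e1, e2⟩
  have a1 : ∀ᵐ z ∂γ, dist z.1 x0 ≤ R := by
    refine ae_of_ae_map (p := fun x => dist x x0 ≤ R) measurable_fst.aemeasurable ?_
    rw [e1]
    exact (withDensity_absolutelyContinuous _ _).ae_le hR
  have a2 : ∀ᵐ z ∂γ, dist z.2 x0 ≤ R := by
    refine ae_of_ae_map (p := fun x => dist x x0 ≤ R) measurable_snd.aemeasurable ?_
    rw [e2]
    exact (withDensity_absolutelyContinuous _ _).ae_le hR
  have a3 : ∀ᵐ z ∂γ, dist z.1 z.2 ≤ 2 * R := by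
    filter_upwards [a1, a2] with z b1 b2
    linarith [dist_triangle_right z.1 z.2 x0]
  have a4 : ∫ z, dist z.1 z.2 ^ 2 ∂γ ≤ N ^ 2 / c := by
    refine (integral_congr_ae ?_).trans_le h
    filter_upwards [a3] with z hz
    rw [min_eq_left (hz.trans (le_abs_self _))]
  refine ⟨γ, inferInstance, e1, e2, a3, a4, ?_⟩
  have i1 : Integrable (fun z : X × X => dist z.1 z.2 ^ 2) γ := by
    refine (integrable_const ((2 * R) ^ 2)).mono' (continuous_dist.pow 2).aestronglyMeasurable ?_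
    filter_upwards [a3] with z hz
    rw [Real.norm_eq_abs, abs_of_nonneg (sq_nonneg _)]
    exact pow_le_pow_left₀ dist_nonneg hz 2
  refine le_trans (le_of_eq ?_) (ENNReal.ofReal_le_ofReal a4)
  rw [ofReal_integral_eq_lintegral_ofReal i1 (Eventually.of_forall fun z => sq_nonneg _)]
  refine lintegral_congr fun z => ?_
  rw [edist_dist, ENNReal.ofReal_pow dist_nonneg]

end Vale.Agent.P242W70
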