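import Mathlib.Topology.MetricSpace.Lipschitz
import Mathlib.Topology.Instances.ENNReal.Lemmas
import Mathlib.Analysis.SpecialFunctions.Pow.Real
import Mathlib.Analysis.SpecialFunctions.Sqrt

/-!
# P242W: the Hopf-Lax formula in an arbitrary metric space, one step in time
-/

open Filter Topology Set
open scoped ENNReal NNReal

noncomputable section

namespace Vale.Agent.P242W70

variable {X : Type*} [MetricSpace X]

/-- the Hopf-Lax formula -/
def Q (u : X → ℝ) (s : ℝ) (x : X) : ℝ := ⨅ y, (u y + dist x y ^ 2 / (2 * s))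

/-- the slope bound of the step from `s` to `s + r` -/
def G (u : X → ℝ) (s r : ℝ) (x : X) : ℝ :=
  √(2 * (s + r) / (r * s) * (Q u s x - Q u (s + r) x))

variable {u : X → ℝ} {B s r : ℝ} (hu : ∀ x, |u x| ≤ B) (hs : 0 < s)
include hu hs

theorem Q_le (x y : X) : Q u s x ≤ u y + dist x y ^ 2 / (2 * s) := by
  refine ciInf_le ⟨-B, ?_⟩ y
  rintro _ ⟨y, rfl⟩
  have h1 := (abs_le.1 (hu y)).1
  have h2 : 0 ≤ dist x y ^ 2 / (2 * s) := by positivity
  dsimp only
  linarith

theorem Q_le_self (x : X) : Q u s x ≤ u x := by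
  simpa using Q_le hu hs x x

omit hu hs in
theorem le_Q {x : X} {a : ℝ} (h : ∀ y, a ≤ u y + dist x y ^ 2 / (2 * s)) : a ≤ Q u s x :=
  haveI : Nonempty X := ⟨x⟩
  le_ciInf h

theorem abs_Q_le (x : X) : |Q u s x| ≤ B := by
  refine abs_le.2 ⟨le_Q fun y => ?_, (Q_le_self hu hs x).trans (abs_le.1 (hu x)).2⟩
  have h1 := (abs_le.1 (hu y)).1
  have h2 : 0 ≤ dist x y ^ 2 / (2 * s) := by positivity
  linarith

omit hu hs in
theorem exists_near (x : X) {η : ℝ} (hη : 0 < η) :
    ∃ y, u y + dist x y ^ 2 / (2 * s) < Q u s x + η :=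
  haveI : Nonempty X := ⟨x⟩
  exists_lt_of_ciInf_lt (lt_add_of_pos_right _ hη)

variable (hr : 0 < r)
include hr

theorem Q_anti (x : X) : Q u (s + r) x ≤ Q u s x := by
  refine le_Q fun y => (Q_le hu (add_pos hs hr) x y).trans ?_
  gcongr
  linarith

theorem G_sq (x : X) : G u s r x ^ 2 = 2 * (s + r) / (r * s) * (Q u s x - Q u (s + r) x) :=
  Real.sq_sqrt (mul_nonneg (by positivity) (sub_nonneg.2 (Q_anti hu hs hr x)))

theorem G_le (x : X) : G u s r x ≤ √(2 * (s + r) / (r * s) * (2 * B)) := by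
  refine Real.sqrt_le_sqrt (mul_le_mul_of_nonneg_left ?_ (by positivity))
  have h1 := (abs_le.1 (abs_Q_le hu hs x)).2
  have h2 := (abs_le.1 (abs_Q_le hu (add_pos hs hr) x)).1
  linarith

theorem Q_sub_le (x z : X) :
    Q u s x - Q u s z ≤ dist x z * (dist x z / (2 * s) + G u s r z) := by
  have hd := dist_nonneg (x := x) (y := z)
  have key : ∀ ε : ℝ, 0 < ε → Q u s x - Q u s z ≤
      dist x z * (dist x z / (2 * s) + G u s r z) + ε * (1 + dist x z) := by
    intro ε hε
    have hη : 0 < min ε (ε ^ 2 * (r * s) / (2 * (s + r))) := lt_min hε (by positivity)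
    obtain ⟨y, hy⟩ := exists_near (u := u) (s := s) z hη
    have h1 := Q_le hu (add_pos hs hr) z y
    have h2 := Q_le hu hs x y
    have h3 := G_sq hu hs hr z
    have hG : 0 ≤ G u s r z := Real.sqrt_nonneg _
    have h4 : (dist z y / s) ^ 2 ≤ G u s r z ^ 2 + ε ^ 2 := by
      have e1 : (dist z y / s) ^ 2 = 2 * (s + r) / (r * s) *
          (dist z y ^ 2 / (2 * s) - dist z y ^ 2 / (2 * (s + r))) := by
        field_simp
        ring
      have e2 : ε ^ 2 = 2 * (s + r) / (r * s) * (ε ^ 2 * (r * s) / (2 * (s + r))) := by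
        field_simp
      rw [e1, h3, e2, ← mul_add]
      refine mul_le_mul_of_nonneg_left ?_ (by positivity)
      have := min_le_right ε (ε ^ 2 * (r * s) / (2 * (s + r)))
      linarith
    have h5 : dist z y / s ≤ G u s r z + ε :=
      le_of_sq_le_sq (h4.trans (by nlinarith)) (by positivity)
    have h6 : dist x y ≤ dist x z + dist z y := dist_triangle x z y
    have h7 : dist x y ^ 2 / (2 * s) ≤
        dist z y ^ 2 / (2 * s) + dist x z * (dist x z / (2 * s) + dist z y / s) := by
      have e3 : dist z y ^ 2 / (2 * s) + dist x z * (dist x z / (2 * s) + dist z y / s) =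
          (dist x z + dist z y) ^ 2 / (2 * s) := by
        field_simp
        ring
      rw [e3]
      gcongr
    have h8 := mul_le_mul_of_nonneg_left h5 hd
    have h9 := min_le_left ε (ε ^ 2 * (r * s) / (2 * (s + r)))
    nlinarith
  refine le_of_forall_pos_le_add fun ε hε => ?_
  have h := key (ε / (1 + dist x z)) (by positivity)
  rwa [div_mul_cancel₀ _ (by positivity)] at h

theorem abs_Q_sub_le (x z : X) :
    |Q u s x - Q u s z| ≤ dist x z * (dist x z / (2 * s) + max (G u s r x) (G u s r z)) := by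
  have hd := dist_nonneg (x := x) (y := z)
  have h1 := Q_sub_le hu hs hr x z
  have h2 := Q_sub_le hu hs hr z x
  rw [dist_comm z x] at h2
  have h3 := mul_le_mul_of_nonneg_left (le_max_left (G u s r x) (G u s r z)) hd
  have h4 := mul_le_mul_of_nonneg_left (le_max_right (G u s r x) (G u s r z)) hd
  rw [abs_le]
  constructor <;> nlinarith

omit hr in
theorem lip_Q : ∃ K, LipschitzWith K (Q u s) := by
  rcases isEmpty_or_nonempty X with h | ⟨⟨x0⟩⟩
  · exact ⟨0, fun x => h.elim x⟩
  have hB : 0 ≤ B := (abs_nonneg _).trans (hu x0)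
  set g := √(2 * (s + 1) / (1 * s) * (2 * B)) with hg
  have hg0 : 0 ≤ g := Real.sqrt_nonneg _
  refine ⟨⟨1 / (2 * s) + g + 2 * B, by positivity⟩, LipschitzWith.of_dist_le_mul fun x z => ?_⟩
  have hd := dist_nonneg (x := x) (y := z)
  have h0 : 0 ≤ 1 / (2 * s) := by positivity
  rw [Real.dist_eq]
  change _ ≤ (1 / (2 * s) + g + 2 * B) * dist x z
  rcases le_total (dist x z) 1 with h | h
  · have h1 := abs_Q_sub_le hu hs one_pos x z
    have h2 : max (G u s 1 x) (G u s 1 z) ≤ g := max_le (G_le hu hs one_pos x) (G_le hu hs one_pos z)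
    have h3 : dist x z / (2 * s) ≤ 1 / (2 * s) := by gcongr
    have h4 := mul_le_mul_of_nonneg_left (add_le_add h3 h2) hd
    nlinarith
  · have h1 := abs_le.1 (abs_Q_le hu hs x)
    have h2 := abs_le.1 (abs_Q_le hu hs z)
    have h3 : |Q u s x - Q u s z| ≤ 2 * B := abs_le.2 ⟨by linarith, by linarith⟩
    nlinarith [mul_nonneg h0 hd, mul_nonneg hg0 hd]

omit hr in
theorem cont_Q : Continuous (Q u s) := (lip_Q hu hs).choose_spec.continuous

theorem cont_G : Continuous (G u s r) :=
  (continuous_const.mul ((cont_Q hu hs).sub (cont_Q hu (add_pos hs hr)))).sqrt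

/-- the slope of `Q u s` is at most `G u s r` -/
theorem slope_Q (x : X) :
    limsup (fun y => ENNReal.ofReal (|Q u s y - Q u s x| / dist y x)) (𝓝[≠] x) ≤
      ENNReal.ofReal (G u s r x) := by
  have hc : Continuous fun y => dist y x / (2 * s) + max (G u s r y) (G u s r x) :=
    ((continuous_id.dist continuous_const).div_const _).add
      ((cont_G hu hs hr).max continuous_const)
  refine ENNReal.le_of_forall_pos_le_add fun ε hε _ => limsup_le_of_le (by isBoundedDefault) ?_
  have h1 : ∀ᶠ y in 𝓝 x, dist y x / (2 * s) + max (G u s r y) (G u s r x) < G u s r x + ε :=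
    hc.continuousAt.eventually_lt continuousAt_const (by simpa using hε)
  filter_upwards [nhdsWithin_le_nhds h1, self_mem_nhdsWithin] with y hy hne
  have hd : 0 < dist y x := dist_pos.2 hne
  rw [← ENNReal.ofReal_coe_nnreal, ← ENNReal.ofReal_add (p := G u s r x) (q := ε) (Real.sqrt_nonneg _) ε.2]
  refine ENNReal.ofReal_le_ofReal ((div_le_iff₀ hd).2 ((abs_Q_sub_le hu hs hr y x).trans ?_))
  rw [mul_comm]
  exact mul_le_mul_of_nonneg_right hy.le hd.le

end Vale.Agent.P242W70
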